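import Vale.Agent.P199.LowDegree

/-!
# Centres over which every algebraic division algebra is commutative
-/

namespace Vale.Agent.P199

open Polynomial

universe u v

variable {F : Type u} {D : Type v} [Field F] [DivisionRing D] [Algebra F D]

/-- Operators `y ↦ ∑ dₖ y aᵏ` with `k` below the degree of `a` vanish only trivially. -/
theorem op_indep (hF : ∀ x : D, (∀ y, x * y = y * x) → x ∈ Set.range (algebraMap F D))
    {a : D} (ha : IsIntegral F a) :
    ∀ (s : Finset ℕ), s ⊆ Finset.range (minpoly F a).natDegree → ∀ (d : ℕ → D),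
      (∀ y : D, ∑ k ∈ s, d k * y * a ^ k = 0) → ∀ k ∈ s, d k = 0 := by
  intro s
  induction s using Finset.induction with
  | empty => simp
  | insert k₀ s hk ih =>
    intro hs d h
    have hs' : s ⊆ Finset.range (minpoly F a).natDegree :=
      (Finset.subset_insert _ _).trans hs
    by_cases h0 : d k₀ = 0
    · intro k hk'
      rcases Finset.mem_insert.1 hk' with rfl | hk'
      · exact h0
      · exact ih hs' d (fun y => by
          have := h y
          rwa [Finset.sum_insert hk, h0, zero_mul, zero_mul, zero_add] at this) k hk'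
    exfalso
    set e := fun k => (d k₀)⁻¹ * d k with he
    have he0 : e k₀ = 1 := inv_mul_cancel₀ h0
    have h' : ∀ y : D, ∑ k ∈ insert k₀ s, e k * y * a ^ k = 0 := fun y => by
      simp only [he, mul_assoc, ← Finset.mul_sum]
      simp only [← mul_assoc]
      simpa [mul_assoc] using congrArg ((d k₀)⁻¹ * ·) (h y)
    have hc : ∀ k ∈ s, ∀ z : D, e k * z = z * e k := by
      intro k hk' z
      have := ih hs' (fun j => e j * z - z * e j) (fun y => by
        have h1 := h' (z * y)
        have h2 := congrArg (z * ·) (h' y)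
        simp only [Finset.mul_sum, mul_zero] at h2
        rw [Finset.sum_insert hk, he0, one_mul] at h1 h2
        simp only [sub_mul, Finset.sum_sub_distrib]
        simp only [mul_assoc] at h1 h2 ⊢
        linear_combination (norm := abel) h1 - h2) k hk'
      exact sub_eq_zero.1 this
    choose! f hf using fun k (hk' : k ∈ s) => hF (e k) (hc k hk')
    set q : F[X] := X ^ k₀ + ∑ k ∈ s, C (f k) * X ^ k with hq
    have hq0 : q.coeff k₀ = 1 := by
      simp only [hq, coeff_add, coeff_X_pow_self, finsetSum_coeff, coeff_C_mul, coeff_X_pow]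
      rw [Finset.sum_eq_zero fun k hk' => by
        rw [if_neg (by rintro rfl; exact hk hk'), mul_zero], add_zero]
    have hqa : aeval a q = 0 := by
      have := h' 1
      rw [Finset.sum_insert hk, he0, one_mul, one_mul] at this
      simp only [hq, map_add, map_sum, map_mul, map_pow, aeval_X, aeval_C]
      rw [← this]
      congr 1
      exact Finset.sum_congr rfl fun k hk' => by rw [hf k hk', mul_one]
    have hne : q ≠ 0 := fun e0 => by simp [e0] at hq0
    have hdeg := natDegree_le_of_dvd (minpoly.dvd F a hqa) hne
    have hlt : q.natDegree < (minpoly F a).natDegree := by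
      have hk0 := Finset.mem_range.1 (hs (Finset.mem_insert_self _ _))
      refine lt_of_le_of_lt ?_ (show (minpoly F a).natDegree - 1 < _ by omega)
      refine (natDegree_add_le _ _).trans (max_le (by simp; omega) ?_)
      refine natDegree_sum_le_of_forall_le _ _ fun k hk' => ?_
      have := Finset.mem_range.1 (hs' hk')
      exact (natDegree_C_mul_X_pow_le _ _).trans (by omega)
    omega

/-- An element is conjugate to every root of its minimal polynomial. -/
theorem exists_conj_root (hF : ∀ x : D, (∀ y, x * y = y * x) → x ∈ Set.range (algebraMap F D))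
    {a b : D} (ha : IsIntegral F a) (hb : aeval b (minpoly F a) = 0) :
    ∃ x : D, x ≠ 0 ∧ x * a = b * x := by
  set m := minpoly F a
  set n := m.natDegree
  let Ψ : ℕ → D → D := fun i y => ∑ k ∈ Finset.range i, b ^ (i - 1 - k) * y * a ^ k
  have hΨ : ∀ i y, b * Ψ i y - Ψ i y * a = b ^ i * y - y * a ^ i := by
    intro i y
    induction i with
    | zero => simp [Ψ]
    | succ i ih =>
      have e : Ψ (i + 1) y = b * Ψ i y + y * a ^ i := by
        simp only [Ψ, Finset.sum_range_succ, Finset.mul_sum]
        congr 1
        · refine Finset.sum_congr rfl fun k hk => ?_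
          have := Finset.mem_range.1 hk
          rw [show i + 1 - 1 - k = (i - 1 - k) + 1 by omega, pow_succ']
          simp only [mul_assoc]
        · simp
      rw [e, pow_succ', pow_succ]
      linear_combination (norm := (simp only [mul_add, add_mul, mul_sub, mul_assoc]; abel))
        congrArg (b * ·) ih
  let Φ : D → D := fun y => ∑ i ∈ Finset.range (n + 1), m.coeff i • Ψ i y
  have hΦ : ∀ y, b * Φ y - Φ y * a = 0 := by
    intro y
    simp only [Φ, Finset.mul_sum, Finset.sum_mul, ← Finset.sum_sub_distrib, mul_smul_comm,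
      smul_mul_assoc, ← smul_sub, hΨ]
    rw [Finset.sum_congr rfl fun i _ => show m.coeff i • (b ^ i * y - y * a ^ i) =
      (m.coeff i • b ^ i) * y - y * (m.coeff i • a ^ i) by
        rw [smul_sub, smul_mul_assoc, mul_smul_comm],
      Finset.sum_sub_distrib, ← Finset.sum_mul, ← Finset.mul_sum]
    rw [← aeval_eq_sum_range, ← aeval_eq_sum_range, hb, minpoly.aeval]
    simp
  have hn : 0 < n := minpoly.natDegree_pos ha
  obtain ⟨y, hy⟩ : ∃ y, Φ y ≠ 0 := by
    by_contra hall
    push Not at hall
    let d : ℕ → D := fun k =>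
      ∑ i ∈ Finset.range (n + 1), if k < i then m.coeff i • b ^ (i - 1 - k) else 0
    have hd : ∀ y, ∑ k ∈ Finset.range n, d k * y * a ^ k = 0 := by
      intro y
      rw [← hall y]
      simp only [Φ, Ψ, d, Finset.sum_mul, Finset.smul_sum, ite_mul, zero_mul, smul_mul_assoc]
      rw [Finset.sum_comm]
      refine Finset.sum_congr rfl fun i hi => ?_
      rw [← Finset.sum_filter]
      refine Finset.sum_congr ?_ fun _ _ => rfl
      ext k
      simp only [Finset.mem_filter, Finset.mem_range] at hi ⊢
      omega
    have := op_indep hF ha (Finset.range n) subset_rfl d hd (n - 1) (by simp; omega)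
    simp only [d, Finset.sum_range_succ] at this
    rw [Finset.sum_eq_zero fun i hi => if_neg (by have := Finset.mem_range.1 hi; omega),
      zero_add, if_pos (by omega), (minpoly.monic ha).coeff_natDegree,
      show n - 1 - (n - 1) = 0 by omega] at this
    simp at this
  exact ⟨Φ y, hy, (sub_eq_zero.1 (hΦ y)).symm⟩

/-- A second root in `F[a]` gives a finite noncommutative subalgebra. -/
theorem inFiniteNoncomm_of_root (hA : ∀ x : D, IsIntegral F x)
    (hF : ∀ x : D, (∀ y, x * y = y * x) → x ∈ Set.range (algebraMap F D)) {a b : D}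
    (hb : b ∈ Algebra.adjoin F {a}) (hne : b ≠ a) (hr : aeval b (minpoly F a) = 0) :
    InFiniteNoncomm F a := by
  obtain ⟨x, hx, hxa⟩ := exists_conj_root hF (hA a) hr
  refine ⟨Algebra.adjoin F (insert x {a}), Algebra.subset_adjoin (Set.mem_insert_of_mem _ rfl),
    finite_adjoin_normalise (hA a).fg_adjoin_singleton (hA x) ?_, x,
    Algebra.subset_adjoin (Set.mem_insert _ _), a,
    Algebra.subset_adjoin (Set.mem_insert_of_mem _ rfl), fun h => hne ?_⟩
  · rintro g rfl
    exact ⟨b, hb, hxa⟩
  · exact mul_right_cancel₀ hx (hxa.symm.trans h)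

/-- A noncentral element of degree at most three. -/
theorem inFiniteNoncomm_low (hA : ∀ x : D, IsIntegral F x)
    (hF : ∀ x : D, (∀ y, x * y = y * x) → x ∈ Set.range (algebraMap F D)) {a : D}
    (ha : a ∉ Set.range (algebraMap F D)) (hd : (minpoly F a).natDegree ≤ 3) :
    InFiniteNoncomm F a := by
  set m := minpoly F a with hm
  have h2 : 2 ≤ m.natDegree := (minpoly.two_le_natDegree_iff (hA a)).2 ha
  have hz := minpoly.aeval F a
  rw [← hm, aeval_eq_sum_range] at hz
  have hl := (minpoly.monic (hA a)).coeff_natDegree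
  rw [← hm] at hl
  rcases (show m.natDegree = 2 ∨ m.natDegree = 3 by omega) with h | h
  · rw [h] at hl hz
    simp only [Finset.sum_range_succ, Finset.sum_range_zero, zero_add, hl, one_smul, pow_zero,
      pow_one] at hz
    exact inFiniteNoncomm_deg_two hA hF ha (c := m.coeff 1) (e := m.coeff 0)
      (by rw [← hz]; abel)
  · rw [h] at hl hz
    simp only [Finset.sum_range_succ, Finset.sum_range_zero, zero_add, hl, one_smul, pow_zero,
      pow_one] at hz
    refine inFiniteNoncomm_deg_three hA hF ha (c := m.coeff 2) (p := m.coeff 1) (r := m.coeff 0)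
      (fun t₂ t₁ t₀ e => ?_) (by rw [← hz]; abel)
    set q : F[X] := C t₂ * X ^ 2 + C t₁ * X + C t₀ with hq
    have hqa : aeval a q = 0 := by
      simp only [hq, map_add, map_mul, map_pow, aeval_X, aeval_C, ← Algebra.smul_def]
      rw [← e, Algebra.algebraMap_eq_smul_one]
    have : q = 0 := by
      by_contra hne
      have h3 := natDegree_le_of_dvd (minpoly.dvd F a hqa) hne
      have h4 : q.natDegree ≤ 2 := natDegree_quadratic_le
      rw [← hm, h] at h3
      omega
    refine ⟨?_, ?_, ?_⟩
    · simpa [hq, coeff_X, coeff_C] using congrArg (coeff · 2) this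
    · simpa [hq, coeff_X, coeff_C] using congrArg (coeff · 1) this
    · simpa [hq, coeff_X, coeff_C] using congrArg (coeff · 0) this

/-- `D = F` when finite-dimensional division algebras over `F` are commutative and every proper
finite extension has a low-degree element or one with a second root. -/
theorem eq_centre (hA : ∀ x : D, IsIntegral F x)
    (hF : ∀ x : D, (∀ y, x * y = y * x) → x ∈ Set.range (algebraMap F D))
    (hcomm : ∀ (E : Type v) [DivisionRing E] [Algebra F E], Module.Finite F E →
      ∀ x y : E, x * y = y * x)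
    (hext : ∀ (K : Type u) [Field K] [Algebra F K], Module.Finite F K →
      1 < Module.finrank F K → ∃ t : K, t ∉ Set.range (algebraMap F K) ∧
        ((minpoly F t).natDegree ≤ 3 ∨
          ∃ s ∈ Algebra.adjoin F {t}, s ≠ t ∧ aeval s (minpoly F t) = 0))
    (a : D) : a ∈ Set.range (algebraMap F D) := by
  have nofin : ∀ b : D, ¬ InFiniteNoncomm F b := by
    rintro b ⟨S, -, hS, x, hx, y, hy, hxy⟩
    have : Module.Finite F S := Module.Finite.iff_fg.2 hS
    let := divisionRingOfFiniteDimensional F S
    exact hxy (congrArg Subtype.val (hcomm S inferInstance ⟨x, hx⟩ ⟨y, hy⟩))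
  by_contra ha
  set m := minpoly F a with hm
  have : Fact (Irreducible m) := ⟨minpoly.irreducible (hA a)⟩
  have hm0 : m ≠ 0 := minpoly.ne_zero (hA a)
  have : Module.Finite F (AdjoinRoot m) := (AdjoinRoot.powerBasis hm0).finite
  have hrank : 1 < Module.finrank F (AdjoinRoot m) := by
    rw [(AdjoinRoot.powerBasis hm0).finrank, AdjoinRoot.powerBasis_dim]
    exact (minpoly.two_le_natDegree_iff (hA a)).2 ha
  obtain ⟨t, ht, hcase⟩ := hext (AdjoinRoot m) inferInstance hrank
  let φ : AdjoinRoot m →ₐ[F] D :=
    Ideal.Quotient.liftₐ (Ideal.span {m}) (aeval a) fun q hq => by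
      obtain ⟨r, rfl⟩ := Ideal.mem_span_singleton.1 hq
      rw [map_mul, hm, minpoly.aeval, zero_mul]
  have hinj : Function.Injective φ := φ.toRingHom.injective
  have hta : φ t ∉ Set.range (algebraMap F D) := by
    rintro ⟨r, hr⟩
    exact ht ⟨r, hinj (by rw [AlgHom.commutes]; exact hr)⟩
  rcases hcase with hd | ⟨s, hs, hne, hroot⟩
  · exact nofin _ (inFiniteNoncomm_low hA hF hta (by rwa [minpoly.algHom_eq φ hinj]))
  · refine nofin _ (inFiniteNoncomm_of_root hA hF (b := φ s) ?_ (fun e => hne (hinj e)) ?_)
    · have := (Algebra.adjoin F {t}).map φ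
      rw [← Set.image_singleton, ← AlgHom.map_adjoin]
      exact ⟨s, hs, rfl⟩
    · rw [minpoly.algHom_eq φ hinj, aeval_algHom_apply, hroot, map_zero]

end Vale.Agent.P199
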