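import Mathlib

/-!
# Elements of degree at most three in algebraic division algebras
-/

namespace Vale.Agent.P199

open Polynomial

variable {F D : Type*} [Field F] [DivisionRing D] [Algebra F D]

/-- A finitely generated submodule with `1` that is stable under right multiplication by a set
contains the subalgebra generated by the set. -/
theorem finite_adjoin_of_stable (G : Set D) (S : Submodule F D) (hS : S.FG) (h1 : (1 : D) ∈ S)
    (h : ∀ s ∈ S, ∀ g ∈ G, s * g ∈ S) :
    (Subalgebra.toSubmodule (Algebra.adjoin F G)).FG := by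
  have key : ∀ x ∈ Algebra.adjoin F G, ∀ s ∈ S, s * x ∈ S := by
    intro x hx
    induction hx using Algebra.adjoin_induction with
    | mem g hg => exact fun s hs => h s hs g hg
    | algebraMap r =>
      intro s hs
      rw [← Algebra.commutes, ← Algebra.smul_def]
      exact S.smul_mem r hs
    | add x y _ _ hx hy =>
      intro s hs
      rw [mul_add]
      exact S.add_mem (hx s hs) (hy s hs)
    | mul x y _ _ hx hy =>
      intro s hs
      rw [← mul_assoc]
      exact hy _ (hx s hs)
  have hle : Subalgebra.toSubmodule (Algebra.adjoin F G) ≤ S := fun x hx => by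
    simpa using key x hx 1 h1
  have : Module.Finite F S := Module.Finite.iff_fg.2 hS
  exact Module.Finite.iff_fg.1 (Submodule.finiteDimensional_of_le hle)

/-- Adjoining an integral element that normalises a finite subalgebra keeps it finite. -/
theorem finite_adjoin_normalise {G : Set D} (hG : (Subalgebra.toSubmodule (Algebra.adjoin F G)).FG)
    {x : D} (hx : IsIntegral F x)
    (h : ∀ g ∈ G, ∃ k ∈ Algebra.adjoin F G, x * g = k * x) :
    (Subalgebra.toSubmodule (Algebra.adjoin F (insert x G))).FG := by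
  set K := Algebra.adjoin F G with hK
  have hN : ∀ k ∈ K, ∃ k' ∈ K, x * k = k' * x := by
    intro k hk
    induction hk using Algebra.adjoin_induction with
    | mem g hg => exact h g hg
    | algebraMap r => exact ⟨algebraMap F D r, K.algebraMap_mem r, (Algebra.commutes r x).symm⟩
    | add p q _ _ hp hq =>
      obtain ⟨p', hp', ep⟩ := hp
      obtain ⟨q', hq', eq⟩ := hq
      exact ⟨p' + q', K.add_mem hp' hq', by rw [mul_add, add_mul, ep, eq]⟩
    | mul p q _ _ hp hq =>
      obtain ⟨p', hp', ep⟩ := hp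
      obtain ⟨q', hq', eq⟩ := hq
      exact ⟨p' * q', K.mul_mem hp' hq', by rw [← mul_assoc, ep, mul_assoc, eq, mul_assoc]⟩
  have hpow : ∀ (n : ℕ), ∀ k ∈ K, ∃ k' ∈ K, x ^ n * k = k' * x ^ n := by
    intro n
    induction n with
    | zero => exact fun k hk => ⟨k, hk, by simp⟩
    | succ n ih =>
      intro k hk
      obtain ⟨k1, hk1, e1⟩ := hN k hk
      obtain ⟨k2, hk2, e2⟩ := ih k1 hk1
      exact ⟨k2, hk2, by rw [pow_succ, mul_assoc, e1, ← mul_assoc, e2, mul_assoc]⟩
  set P := Subalgebra.toSubmodule (Algebra.adjoin F {x})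
  refine finite_adjoin_of_stable _ (Subalgebra.toSubmodule K * P) (hG.mul hx.fg_adjoin_singleton)
    ?_ ?_
  · simpa using Submodule.mul_mem_mul (show (1 : D) ∈ Subalgebra.toSubmodule K from K.one_mem)
      (show (1 : D) ∈ P from (Algebra.adjoin F {x}).one_mem)
  intro s hs g hg
  induction hs using Submodule.mul_induction_on' with
  | mem_mul_mem k hk p hp =>
    rcases Set.mem_insert_iff.1 hg with hgx | hgG
    · rw [hgx, mul_assoc]
      exact Submodule.mul_mem_mul hk
        ((Algebra.adjoin F {x}).mul_mem hp (Algebra.subset_adjoin rfl))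
    · have hgK : g ∈ K := Algebra.subset_adjoin hgG
      change p ∈ Algebra.adjoin F {x} at hp
      rw [Algebra.adjoin_singleton_eq_range_aeval] at hp
      obtain ⟨q, rfl⟩ := hp
      simp only [AlgHom.toRingHom_eq_coe, RingHom.coe_coe]
      induction q using Polynomial.induction_on' with
      | add q₁ q₂ h₁ h₂ =>
        rw [map_add, mul_add, add_mul]
        exact Submodule.add_mem _ h₁ h₂
      | monomial n c =>
        obtain ⟨g', hg', e⟩ := hpow n g hgK
        rw [aeval_monomial, ← Algebra.smul_def, mul_smul_comm, smul_mul_assoc, mul_assoc, e,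
          ← mul_assoc]
        refine Submodule.smul_mem _ c (Submodule.mul_mem_mul (K.mul_mem hk hg') ?_)
        exact pow_mem (Algebra.subset_adjoin (Set.mem_singleton x)) n
  | add s t _ _ hs ht => rw [add_mul]; exact Submodule.add_mem _ hs ht

/-- The relations of a Wedderburn factorisation of a cubic bound the generated algebra. -/
theorem finite_adjoin_cubic {a b : D} {c p r : F}
    (ha : IsIntegral F a) (hz : IsIntegral F (b * a ^ 2))
    (fa : a ^ 3 + c • a ^ 2 + p • a + r • (1 : D) = 0)
    (fb : b ^ 3 + c • b ^ 2 + p • b + r • (1 : D) = 0)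
    (hq : b ^ 2 + (a + c • (1 : D)) * b + (a ^ 2 + c • a + p • (1 : D)) = 0) :
    (Subalgebra.toSubmodule (Algebra.adjoin F ({a, b} : Set D))).FG := by
  set z := b * a ^ 2 with hzdef
  have hq' : b * b = -(a * b) - c • b - a * a - c • a - p • (1 : D) := by
    rw [add_mul, smul_mul_assoc, one_mul, sq, sq] at hq
    linear_combination (norm := abel) hq
  have fa' : a * (a * a) = -(c • (a * a)) - p • a - r • (1 : D) := by
    rw [pow_succ, sq, mul_assoc] at fa
    linear_combination (norm := abel) fa
  have hbab : b * (a * b) = -z - c • (b * a) + r • (1 : D) := by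
    have e : b * (b * b) = -(b * (a * b)) - c • (b * b) - b * (a * a) - c • (b * a) - p • b := by
      conv_lhs => rw [hq']
      simp only [mul_sub, mul_neg, mul_smul_comm, mul_one]
    rw [pow_succ, sq, mul_assoc] at fb
    rw [hzdef, sq]
    linear_combination (norm := abel) e - fb
  set W := Submodule.span F ({1, b, b * a} : Set D)
  set P := Subalgebra.toSubmodule (Algebra.adjoin F {a})
  set Z := Subalgebra.toSubmodule (Algebra.adjoin F {z})
  set S := P * (Z * W) with hSdef
  have Pm : ∀ u ∈ P, ∀ v ∈ P, u * v ∈ P := fun u hu v hv =>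
    (Algebra.adjoin F {a}).mul_mem hu hv
  have P1 : (1 : D) ∈ P := (Algebra.adjoin F {a}).one_mem
  have Pa : a ∈ P := Algebra.subset_adjoin rfl
  have Zk : ∀ k : ℕ, z ^ k ∈ Z := fun k => pow_mem (Algebra.subset_adjoin (Set.mem_singleton z)) k
  have W1 : (1 : D) ∈ W := Submodule.subset_span (by simp)
  have Wb : b ∈ W := Submodule.subset_span (by simp)
  have Wba : b * a ∈ W := Submodule.subset_span (by simp)
  have mk : ∀ (k : ℕ) (w : D), w ∈ W → z ^ k * w ∈ S := fun k w hw => by
    simpa using Submodule.mul_mem_mul P1 (Submodule.mul_mem_mul (Zk k) hw)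
  have mk1 : ∀ k : ℕ, z ^ k ∈ S := fun k => by simpa using mk k 1 W1
  have sub : ∀ {u v : D}, u ∈ S → v ∈ S → u - v ∈ S := fun hu hv => S.sub_mem hu hv
  have sm : ∀ (t : F) {u : D}, u ∈ S → t • u ∈ S := fun t _ hu => S.smul_mem t hu
  -- left multiplication by `a`
  have left : ∀ u ∈ P, ∀ s ∈ S, u * s ∈ S := by
    intro u hu s hs
    induction hs using Submodule.mul_induction_on' with
    | mem_mul_mem v hv t ht =>
      rw [← mul_assoc]
      exact Submodule.mul_mem_mul (Pm u hu v hv) ht
    | add s t _ _ hs ht => rw [mul_add]; exact S.add_mem hs ht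
  -- the rewriting step
  have step : ∀ k : ℕ, z ^ k * a ∈ S ∧ z ^ k * (a * b) ∈ S ∧ z ^ k * (a * a) ∈ S := by
    intro k
    induction k with
    | zero =>
      simp only [pow_zero, one_mul]
      refine ⟨?_, ?_, ?_⟩
      · simpa using left a Pa 1 (by simpa using mk1 0)
      · exact left a Pa b (by simpa using mk 0 b Wb)
      · exact left a Pa a (by simpa using left a Pa 1 (by simpa using mk1 0))
    | succ k ih =>
      obtain ⟨i1, i2, i3⟩ := ih
      have za : z ^ (k + 1) * a = -(c • z ^ (k + 1)) - p • (z ^ k * (b * a)) - r • (z ^ k * b) := by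
        have : z ^ (k + 1) * a = z ^ k * (b * (a * (a * a))) := by
          rw [pow_succ, hzdef]; simp only [sq, mul_assoc]
        rw [this, fa', pow_succ, hzdef]
        simp only [mul_sub, mul_neg, mul_smul_comm, mul_one, sq, mul_assoc]
      have hbb : z ^ k * (b * b) ∈ S := by
        rw [hq']
        simp only [mul_sub, mul_neg, mul_smul_comm, mul_one]
        exact sub (sub (sub (sub (S.neg_mem i2) (sm c (mk k b Wb))) i3) (sm c i1)) (sm p (mk1 k))
      refine ⟨?_, ?_, ?_⟩
      · rw [za]
        exact sub (sub (S.neg_mem (sm c (mk1 _))) (sm p (mk k _ Wba))) (sm r (mk k b Wb))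
      · rw [← mul_assoc, za]
        simp only [sub_mul, neg_mul, smul_mul_assoc, mul_assoc]
        refine sub (sub (S.neg_mem (sm c (mk (k + 1) b Wb))) (sm p ?_)) (sm r hbb)
        rw [hbab]
        simp only [mul_sub, mul_add, mul_neg, mul_smul_comm, mul_one]
        rw [← pow_succ]
        exact S.add_mem (sub (S.neg_mem (mk1 _)) (sm c (mk k _ Wba))) (sm r (mk1 k))
      · rw [← mul_assoc, za]
        simp only [sub_mul, neg_mul, smul_mul_assoc, mul_assoc]
        rw [← sq, ← hzdef, ← pow_succ]
        refine sub (sub (S.neg_mem (sm c ?_)) (sm p (mk1 _))) (sm r (mk k _ Wba))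
        rw [za]
        exact sub (sub (S.neg_mem (sm c (mk1 _))) (sm p (mk k _ Wba))) (sm r (mk k b Wb))
  have gen : ∀ (k : ℕ), ∀ w ∈ W, z ^ k * (w * a) ∈ S ∧ z ^ k * (w * b) ∈ S := by
    intro k w hw
    obtain ⟨i1, i2, i3⟩ := step k
    induction hw using Submodule.span_induction with
    | mem w hw =>
      simp only [Set.mem_insert_iff, Set.mem_singleton_iff] at hw
      rcases hw with h | h | h <;> rw [h]
      · simp only [one_mul]; exact ⟨i1, mk k b Wb⟩
      · refine ⟨mk k _ Wba, ?_⟩
        rw [hq']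
        simp only [mul_sub, mul_neg, mul_smul_comm, mul_one]
        exact sub (sub (sub (sub (S.neg_mem i2) (sm c (mk k b Wb))) i3) (sm c i1)) (sm p (mk1 k))
      · simp only [mul_assoc]
        refine ⟨?_, ?_⟩
        · rw [← sq, ← hzdef, ← pow_succ]; exact mk1 _
        · rw [hbab]
          simp only [mul_sub, mul_add, mul_neg, mul_smul_comm, mul_one]
          rw [← pow_succ]
          exact S.add_mem (sub (S.neg_mem (mk1 _)) (sm c (mk k _ Wba))) (sm r (mk1 k))
    | zero => simp
    | add u v _ _ hu hv =>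
      exact ⟨by rw [add_mul, mul_add]; exact S.add_mem hu.1 hv.1,
        by rw [add_mul, mul_add]; exact S.add_mem hu.2 hv.2⟩
    | smul t u _ hu =>
      exact ⟨by rw [smul_mul_assoc, mul_smul_comm]; exact sm t hu.1,
        by rw [smul_mul_assoc, mul_smul_comm]; exact sm t hu.2⟩
  refine finite_adjoin_of_stable _ S (ha.fg_adjoin_singleton.mul (hz.fg_adjoin_singleton.mul
    (Submodule.fg_span (by simp)))) (by simpa using mk1 0) ?_
  intro s hs g hg
  induction hs using Submodule.mul_induction_on' with
  | add s t _ _ hs ht => rw [add_mul]; exact S.add_mem hs ht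
  | mem_mul_mem u hu t ht =>
    rw [mul_assoc]
    refine left u hu _ ?_
    induction ht using Submodule.mul_induction_on' with
    | add s t _ _ hs ht => rw [add_mul]; exact S.add_mem hs ht
    | mem_mul_mem v hv w hw =>
      change v ∈ Algebra.adjoin F {z} at hv
      rw [Algebra.adjoin_singleton_eq_range_aeval] at hv
      obtain ⟨q, rfl⟩ := hv
      simp only [AlgHom.toRingHom_eq_coe, RingHom.coe_coe]
      induction q using Polynomial.induction_on' with
      | add q₁ q₂ h₁ h₂ => rw [map_add, add_mul, add_mul]; exact S.add_mem h₁ h₂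
      | monomial n t =>
        rw [aeval_monomial, ← Algebra.smul_def, smul_mul_assoc, smul_mul_assoc, mul_assoc]
        refine sm t ?_
        rcases hg with rfl | rfl
        · exact (gen n w hw).1
        · exact (gen n w hw).2

/-- `a` lies in a finite-dimensional noncommutative subalgebra. -/
def InFiniteNoncomm (F : Type*) {D : Type*} [Field F] [DivisionRing D] [Algebra F D] (a : D) :
    Prop :=
  ∃ S : Subalgebra F D, a ∈ S ∧ (Subalgebra.toSubmodule S).FG ∧ ∃ x ∈ S, ∃ y ∈ S, x * y ≠ y * x

/-- A nilpotent inner derivation gives a finite noncommutative subalgebra. -/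
theorem inFiniteNoncomm_of_adNilpotent (hA : ∀ x : D, IsIntegral F x) {a y₀ : D}
    (h1 : a * y₀ - y₀ * a ≠ 0)
    (hnil : ∃ n : ℕ, (fun y : D => a * y - y * a)^[n] y₀ = 0) : InFiniteNoncomm F a := by
  obtain ⟨n, hn⟩ := hnil
  obtain ⟨y, hy1, hy2⟩ : ∃ y : D, a * y - y * a ≠ 0 ∧
      a * (a * y - y * a) - (a * y - y * a) * a = 0 := by
    induction n generalizing y₀ with
    | zero => simp only [Function.iterate_zero, id_eq] at hn; exact absurd hn (by
        rintro rfl; simp at h1)
    | succ n ih =>
      rw [Function.iterate_succ_apply] at hn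
      by_cases h2 : a * (a * y₀ - y₀ * a) - (a * y₀ - y₀ * a) * a = 0
      · exact ⟨y₀, h1, h2⟩
      · exact ih h2 hn
  set w := a * y - y * a with hw
  have ha0 : a ≠ 0 := by rintro rfl; simp at h1
  have hwa : a * w⁻¹ = w⁻¹ * a := by
    have hc : a * w = w * a := sub_eq_zero.1 hy2
    exact (Commute.inv_right₀ hc).eq
  set z := y * (w⁻¹ * a) with hz
  have hza : a * z = (z + 1) * a := by
    have e : a * z - z * a = a := by
      have hcomm : w⁻¹ * a * a = a * (w⁻¹ * a) := by rw [← mul_assoc a, hwa]
      rw [hz, ← mul_assoc a y, mul_assoc y (w⁻¹ * a) a, hcomm, ← mul_assoc y a, ← sub_mul, ← hw,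
        ← mul_assoc, mul_inv_cancel₀ hy1, one_mul]
    linear_combination (norm := (simp only [add_mul, one_mul]; abel)) e
  refine ⟨Algebra.adjoin F (insert a {z}), Algebra.subset_adjoin (Set.mem_insert _ _),
    finite_adjoin_normalise (hA z).fg_adjoin_singleton (hA a) ?_, a,
    Algebra.subset_adjoin (Set.mem_insert _ _), z,
    Algebra.subset_adjoin (Set.mem_insert_of_mem _ rfl), fun h => ha0 ?_⟩
  · rintro g rfl
    exact ⟨z + 1, add_mem (Algebra.subset_adjoin rfl) (one_mem _), hza⟩
  · rw [hza, add_mul, one_mul] at h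
    exact add_eq_left.1 h

theorem not_comm_of_notMem (hF : ∀ x : D, (∀ y, x * y = y * x) → x ∈ Set.range (algebraMap F D))
    {a : D} (ha : a ∉ Set.range (algebraMap F D)) : ∃ y : D, a * y ≠ y * a := by
  by_contra h
  exact ha (hF a fun y => not_not.1 fun e => h ⟨y, e⟩)

/-- An element that is a conjugate of a noncommuting conjugate. -/
theorem exists_conj {a y₀ : D} (h : a * y₀ ≠ y₀ * a) :
    ∃ d y b : D, d ≠ 0 ∧ y ≠ 0 ∧ d = b - a ∧ b * y₀ = y₀ * a ∧ y = d * y₀ := by
  have hy : y₀ ≠ 0 := by rintro rfl; simp at h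
  have hb : y₀ * a * y₀⁻¹ * y₀ = y₀ * a := by rw [mul_assoc, inv_mul_cancel₀ hy, mul_one]
  have hd : y₀ * a * y₀⁻¹ - a ≠ 0 := fun e => h (by
    rw [sub_eq_zero] at e
    nth_rewrite 1 [← e]
    exact hb)
  exact ⟨_, _, _, hd, mul_ne_zero hd hy, rfl, hb, rfl⟩

theorem aeval_conj {a b y : D} (hy : y ≠ 0) (h : b * y = y * a) (q : F[X]) :
    aeval b q * y = y * aeval a q := by
  induction q using Polynomial.induction_on' with
  | add q₁ q₂ h₁ h₂ => rw [map_add, map_add, add_mul, mul_add, h₁, h₂]
  | monomial n t =>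
    have hp : b ^ n * y = y * a ^ n := (SemiconjBy.pow_right (h.symm : SemiconjBy y a b) n).symm
    rw [aeval_monomial, aeval_monomial, mul_assoc, hp, ← mul_assoc, Algebra.commutes, mul_assoc]

/-- Quadratic elements. -/
theorem inFiniteNoncomm_deg_two (hA : ∀ x : D, IsIntegral F x)
    (hF : ∀ x : D, (∀ y, x * y = y * x) → x ∈ Set.range (algebraMap F D))
    {a : D} (ha : a ∉ Set.range (algebraMap F D)) {c e : F}
    (fa : a ^ 2 + c • a + e • (1 : D) = 0) : InFiniteNoncomm F a := by
  obtain ⟨y₀, hy₀⟩ := not_comm_of_notMem hF ha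
  obtain ⟨d, y, b, hd, hy, hdb, hb, hyd⟩ := exists_conj hy₀
  set v := -a - c • (1 : D) with hv
  have fb : b ^ 2 + c • b + e • (1 : D) = 0 := by
    have h0 : y₀ ≠ 0 := by rintro rfl; simp at hy₀
    have := aeval_conj (F := F) h0 hb (X ^ 2 + C c * X + C e)
    simp only [map_add, map_mul, map_pow, aeval_X, aeval_C, ← Algebra.smul_def] at this
    simp only [Algebra.algebraMap_eq_smul_one, fa, mul_zero] at this
    exact (mul_eq_zero.1 this).resolve_right h0
  have hvd : v * d = d * b := by
    rw [hv, hdb]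
    simp only [sq] at fa fb
    simp only [sub_mul, mul_sub, neg_mul, smul_mul_assoc, one_mul, smul_sub]
    linear_combination (norm := abel) fa - fb
  have hva : v * y = y * a := by rw [hyd, ← mul_assoc, hvd, mul_assoc, hb, mul_assoc]
  by_cases hca : v = a
  · -- inseparable
    have h2 : (2 : F) = 0 := by
      by_contra h2
      apply ha
      refine ⟨-c / 2, ?_⟩
      have : (2 : F) • a = (-c) • (1 : D) := by
        rw [two_smul, neg_smul]
        rw [hv] at hca
        linear_combination (norm := abel) -hca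
      rw [Algebra.algebraMap_eq_smul_one, div_eq_inv_mul, mul_smul, ← this, inv_smul_smul₀ h2]
    have hc : c • (1 : D) = 0 := by
      have : (2 : F) • a = 0 := by rw [h2, zero_smul]
      rw [two_smul] at this
      rw [hv] at hca
      linear_combination (norm := abel) -hca - this
    have hc' : c • a = 0 := by rw [← one_mul a, ← smul_mul_assoc, hc, zero_mul]
    have ha2 : a * a = -(e • (1 : D)) := by
      rw [hc', add_zero, sq] at fa; exact eq_neg_of_add_eq_zero_left fa
    refine inFiniteNoncomm_of_adNilpotent hA (sub_ne_zero.2 hy₀) ⟨2, ?_⟩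
    simp only [Function.iterate_succ, Function.iterate_zero, id_eq, Function.comp_apply]
    have hh : ∀ u : D, u + u = 0 := fun u => by rw [← two_smul F, h2, zero_smul]
    simp only [mul_sub, sub_mul, ← mul_assoc, ha2]
    rw [mul_assoc y₀ a a, ha2]
    simp only [neg_mul, mul_neg, smul_mul_assoc, mul_smul_comm, one_mul, mul_one]
    linear_combination (norm := abel) (-1 : ℤ) • hh (e • y₀) + (-1 : ℤ) • hh (a * y₀ * a)
  · refine ⟨Algebra.adjoin F (insert y {a}), Algebra.subset_adjoin (Set.mem_insert_of_mem _ rfl),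
      finite_adjoin_normalise (hA a).fg_adjoin_singleton (hA y) ?_, y,
      Algebra.subset_adjoin (Set.mem_insert _ _), a,
      Algebra.subset_adjoin (Set.mem_insert_of_mem _ rfl), fun h => hca ?_⟩
    · rintro g rfl
      exact ⟨v, sub_mem (neg_mem (Algebra.subset_adjoin rfl))
        (Subalgebra.smul_mem _ (one_mem _) _), hva.symm⟩
    · exact mul_right_cancel₀ hy (hva.trans h)

/-- Cubic elements. -/
theorem inFiniteNoncomm_deg_three (hA : ∀ x : D, IsIntegral F x)
    (hF : ∀ x : D, (∀ y, x * y = y * x) → x ∈ Set.range (algebraMap F D))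
    {a : D} (ha : a ∉ Set.range (algebraMap F D)) {c p r : F}
    (hind : ∀ t₂ t₁ t₀ : F, t₂ • a ^ 2 + t₁ • a + t₀ • (1 : D) = 0 → t₂ = 0 ∧ t₁ = 0 ∧ t₀ = 0)
    (fa : a ^ 3 + c • a ^ 2 + p • a + r • (1 : D) = 0) : InFiniteNoncomm F a := by
  obtain ⟨y₀, hy₀⟩ := not_comm_of_notMem hF ha
  obtain ⟨d, y, b, hd, hy, hdb, hb, hyd⟩ := exists_conj hy₀
  set a₂ := d * b * d⁻¹ with ha₂
  have h2d : a₂ * d = d * b := by rw [ha₂, mul_assoc (d * b), inv_mul_cancel₀ hd, mul_one]
  have h2y : a₂ * y = y * a := by rw [hyd, ← mul_assoc, h2d, mul_assoc, hb, mul_assoc]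
  have conj : ∀ {b' y' : D}, y' ≠ 0 → b' * y' = y' * a →
      b' ^ 3 + c • b' ^ 2 + p • b' + r • (1 : D) = 0 := by
    intro b' y' h0 h
    have := aeval_conj (F := F) h0 h (X ^ 3 + C c * X ^ 2 + C p * X + C r)
    simp only [map_add, map_mul, map_pow, aeval_X, aeval_C, ← Algebra.smul_def] at this
    simp only [Algebra.algebraMap_eq_smul_one, fa, mul_zero] at this
    exact (mul_eq_zero.1 this).resolve_right h0
  have hy00 : y₀ ≠ 0 := by rintro rfl; simp at hy₀
  have fb := conj hy00 hb
  have f2 := conj hy h2y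
  have hq : a₂ ^ 2 + (a + c • (1 : D)) * a₂ + (a ^ 2 + c • a + p • (1 : D)) = 0 := by
    refine (mul_eq_zero.1 (?_ : _ * d = 0)).resolve_right hd
    simp only [add_mul, sq, smul_mul_assoc, one_mul, mul_assoc, h2d]
    rw [← mul_assoc a₂ d b, h2d, hdb]
    simp only [pow_succ, pow_zero, one_mul] at fa fb
    simp only [sub_mul, mul_sub, mul_assoc, smul_sub, smul_mul_assoc, one_mul] at *
    linear_combination (norm := abel) fb - fa
  by_cases hc2 : a * a₂ = a₂ * a
  swap
  · exact ⟨_, Algebra.subset_adjoin (by simp),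
      finite_adjoin_cubic (hA a) (hA _) fa f2 hq, a, Algebra.subset_adjoin (by simp), a₂,
      Algebra.subset_adjoin (by simp), hc2⟩
  by_cases he : a₂ = a
  · -- inseparable
    rw [he] at hq
    have h3 : (3 : F) • a ^ 2 + (2 * c) • a + p • (1 : D) = 0 := by
      simp only [add_mul, smul_mul_assoc, one_mul, ← sq] at hq
      rw [show (3 : F) = 1 + 1 + 1 by norm_num, two_mul]
      simp only [add_smul, one_smul]
      linear_combination (norm := abel) hq
    obtain ⟨h3', h2c, hp⟩ := hind _ _ _ h3
    have hc0 : c = 0 := by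
      linear_combination c * h3' - h2c
    subst hc0 hp
    simp only [zero_smul, add_zero, pow_succ, pow_zero, one_mul] at fa
    have ha3 : a * a * a = -(r • (1 : D)) := eq_neg_of_add_eq_zero_left fa
    refine inFiniteNoncomm_of_adNilpotent hA (sub_ne_zero.2 hy₀) ⟨3, ?_⟩
    simp only [Function.iterate_succ, Function.iterate_zero, id_eq, Function.comp_apply]
    have hh : ∀ u : D, u + u + u = 0 := fun u => by
      have : (3 : F) • u = 0 := by rw [h3', zero_smul]
      rw [show (3 : F) = 1 + 1 + 1 by norm_num] at this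
      simpa only [add_smul, one_smul] using this
    simp only [mul_sub, sub_mul, ← mul_assoc, ha3]
    rw [mul_assoc (y₀ * a) a a, mul_assoc y₀ a (a * a), ← mul_assoc a a a, ha3]
    simp only [neg_mul, mul_neg, smul_mul_assoc, mul_smul_comm, one_mul, mul_one]
    linear_combination (norm := abel)
      (-1 : ℤ) • hh (a * a * y₀ * a) + hh (a * y₀ * a * a)
  · -- a separable root in a commutative subalgebra
    set a₃ := -a - a₂ - c • (1 : D) with ha₃
    have hK : (Subalgebra.toSubmodule (Algebra.adjoin F ({a, a₂} : Set D))).FG := by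
      have hn := finite_adjoin_normalise (G := {a}) (hA a).fg_adjoin_singleton (hA a₂)
        (fun g hg => ⟨a, Algebra.subset_adjoin rfl, by rw [Set.mem_singleton_iff.1 hg, hc2]⟩)
      rwa [show ({a, a₂} : Set D) = insert a₂ {a} from Set.pair_comm a a₂]
    have aK : a ∈ Algebra.adjoin F ({a, a₂} : Set D) := Algebra.subset_adjoin (by simp)
    have bK : a₂ ∈ Algebra.adjoin F ({a, a₂} : Set D) := Algebra.subset_adjoin (by simp)
    obtain ⟨x, hx, hxa, hxb⟩ : ∃ x : D, x ≠ 0 ∧ x * a = a₂ * x ∧
        (x * a₂ = a * x ∨ x * a₂ = a₃ * x) := by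
      by_cases hx : y * a₂ - a * y = 0
      · exact ⟨y, hy, h2y.symm, Or.inl (sub_eq_zero.1 hx)⟩
      refine ⟨_, hx, ?_, Or.inr ?_⟩
      · rw [sub_mul, mul_sub, mul_assoc y a₂ a, ← hc2, ← mul_assoc y a a₂, ← h2y, mul_assoc a y a,
          ← h2y, ← mul_assoc a a₂ y, hc2]
        simp only [mul_assoc]
      · -- `a₃² + (a₂ + c) a₃ + q(a₂) = 0` in the commutative algebra
        have hy2 : y * (a * a₂) = a₂ * (y * a₂) := by rw [← mul_assoc, ← h2y, mul_assoc]
        have hyaa : y * (a * a) = a₂ * (a₂ * y) := by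
          rw [← mul_assoc, ← h2y, mul_assoc, ← h2y]
        rw [sub_mul, mul_sub, mul_assoc y a₂ a₂, ha₃]
        have hb2 : a₂ * a₂ = -(a * a₂) - c • a₂ - a * a - c • a - p • (1 : D) := by
          simp only [add_mul, smul_mul_assoc, one_mul, sq] at hq
          linear_combination (norm := abel) hq
        conv_lhs => rw [hb2]
        simp only [sub_mul, mul_sub, neg_mul, mul_neg, smul_mul_assoc, mul_smul_comm, one_mul,
          mul_one, hy2, hyaa, ← h2y, mul_assoc]
        have hz : a₂ * (a₂ * y) + (a * (a₂ * y) + c • (a₂ * y)) + (a * (a * y) + c • (a * y) +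
            p • y) = 0 := by
          have := congrArg (· * y) hq
          simp only [add_mul, sq, zero_mul, smul_mul_assoc, one_mul, mul_assoc] at this
          exact this
        have hc3 : a₂ * (a * y) = a * (a₂ * y) := by rw [← mul_assoc, ← hc2, mul_assoc]
        rw [hc3]
        linear_combination (norm := abel) (-1 : ℤ) • hz
    refine ⟨Algebra.adjoin F (insert x {a, a₂}), Algebra.subset_adjoin (by simp),
      finite_adjoin_normalise hK (hA x) ?_, x, Algebra.subset_adjoin (by simp), a,
      Algebra.subset_adjoin (by simp), fun h => he ?_⟩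
    · rintro g (rfl | rfl)
      · exact ⟨a₂, bK, hxa⟩
      · rcases hxb with h | h
        · exact ⟨a, aK, h⟩
        · exact ⟨a₃, sub_mem (sub_mem (neg_mem aK) bK) (Subalgebra.smul_mem _ (one_mem _) _), h⟩
    · exact mul_right_cancel₀ hx (hxa.symm.trans h)

end Vale.Agent.P199
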